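import Vale.Agent.P137.Core
import Vale.Agent.P137.Flat
import Vale.Agent.P137.Rep
import Vale.Agent.P137.Sums
import Vale.Agent.P137.High
import Vale.Agent.P137.Low
import Vale.Agent.P137.Assembly

namespace Vale.Agent.Results.P137.UncenteredEndpoint

open MeasureTheory Metric
open scoped InnerProductSpace ENNReal
open Vale.Agent.P137

/-- Endpoint Sobolev regularity of the uncentred Hardy-Littlewood maximal function over Euclidean
balls, in every dimension. -/
theorem result : ∀ d : ℕ, 0 < d → ∃ C : ℝ, 0 < C ∧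
    ∀ (f : EuclideanSpace ℝ (Fin d) → ℝ)
      (g : EuclideanSpace ℝ (Fin d) → EuclideanSpace ℝ (Fin d)),
      Integrable f volume → Integrable g volume →
      (∀ φ : EuclideanSpace ℝ (Fin d) → ℝ, ContDiff ℝ (⊤ : ℕ∞) φ → HasCompactSupport φ →
        ∀ v : EuclideanSpace ℝ (Fin d),
          ∫ x, f x * fderiv ℝ φ x v = - ∫ x, ⟪g x, v⟫_ℝ * φ x) →
      ∃ (h : EuclideanSpace ℝ (Fin d) → ℝ)
        (H : EuclideanSpace ℝ (Fin d) → EuclideanSpace ℝ (Fin d)),
        LocallyIntegrable h volume ∧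
        (∀ᵐ x : EuclideanSpace ℝ (Fin d),
          (⨆ (c : EuclideanSpace ℝ (Fin d)) (r : ℝ) (_ : x ∈ ball c r),
              (∫⁻ y in ball c r, ENNReal.ofReal |f y|) / volume (ball c r))
            = ENNReal.ofReal (h x)) ∧
        Integrable H volume ∧
        (∀ φ : EuclideanSpace ℝ (Fin d) → ℝ, ContDiff ℝ (⊤ : ℕ∞) φ → HasCompactSupport φ →
          ∀ v : EuclideanSpace ℝ (Fin d),
            ∫ x, h x * fderiv ℝ φ x v = - ∫ x, ⟪H x, v⟫_ℝ * φ x) ∧
        ∫ x, ‖H x‖ ≤ C * ∫ x, ‖g x‖ :=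
  main rep (high) (Low.low (core flat) sums)

end Vale.Agent.Results.P137.UncenteredEndpoint
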